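import Vale.Agent.P073.TR.FlowBox

/-!
# P073, block A06 (C3): one generic offset for all levels

For a continuous conical map `h : Ω → ℝⁿ` and a locally finite family of tiles `M i`, almost every
offset `θ : Fin n → ℝ` has the property that all levels `{h_j = θ_j + q}`, `q` in a fixed countable
set `Q`, are simultaneously regular along all tiles: at every point where the coordinates `j ∈ J`
lie on such levels there is a flow box for `(h_j)_{j ∈ J}` along all `M i`.
-/

open Set Metric Topology Filter MeasureTheory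

namespace P073.H84

open P073.TR

section ae

variable {V W : Type*} [NormedAddCommGroup V] [NormedSpace ℝ V] [FiniteDimensional ℝ V]
  [MeasurableSpace V] [BorelSpace V] [NormedAddCommGroup W] [NormedSpace ℝ W]
  [MeasurableSpace W] [BorelSpace W]

/-- almost everywhere statements pull back along surjective affine maps (no measurability) -/
theorem ae_comp_affine (μ : Measure V) [μ.IsAddHaarMeasure] (ν : Measure W) [ν.IsAddHaarMeasure]
    (L : V →ₗ[ℝ] W) (hL : Function.Surjective L) (c : W) {p : W → Prop} (h : ∀ᵐ y ∂ν, p y) :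
    ∀ᵐ x ∂μ, p (L x + c) := by
  have h1 : ∀ᵐ y ∂ν, p (y + c) := by
    have := (measurePreserving_add_right ν c).quasiMeasurePreserving.ae h
    exact this
  set s : Set W := (toMeasurable ν {y | ¬ p (y + c)})ᶜ with hs
  have hsm : MeasurableSet s := (measurableSet_toMeasurable _ _).compl
  have h2 : ∀ᵐ y ∂ν, y ∈ s := by
    rw [ae_iff]
    have : {a | a ∉ s} = toMeasurable ν {y | ¬ p (y + c)} := by
      ext a; simp [hs]
    rw [this, measure_toMeasurable]
    exact h1
  have h3 := (ae_comp_linearMap_mem_iff L μ ν hL hsm).2 h2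
  filter_upwards [h3] with x hx
  by_contra hn
  exact hx (subset_toMeasurable ν _ hn)

end ae

variable {E F : Type*} [NormedAddCommGroup E] [NormedSpace ℝ E]
  [NormedAddCommGroup F] [NormedSpace ℝ F]

/-- extend a flow box to the members of the family that stay away -/
theorem FlowBox.extend {ι : Type*} {u : E → F} {M : ι → Set E} {S : Set ι} {U : Set E} {x : E}
    {σ : F →ₗ[ℝ] E} {r : ℝ} [FiniteDimensional ℝ F] (hU : IsOpen U) (hx : x ∈ U)
    (h : FlowBox u (fun i : S => M i) x σ r) (hS : ∀ i, i ∉ S → M i ∩ U = ∅) :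
    ∃ r', FlowBox u M x σ r' := by
  have hσc : Continuous σ := σ.continuous_of_finiteDimensional
  obtain ⟨δ, hδ, hδ'⟩ : ∃ δ > 0, ∀ w s, ‖w‖ < δ → ‖s‖ < δ → x + w ∈ U ∧ x + w + σ s ∈ U := by
    have c2 : ContinuousAt (fun z : E × F => x + z.1 + σ z.2) (0, 0) := by
      apply Continuous.continuousAt; fun_prop
    have c1 : ContinuousAt (fun z : E × F => x + z.1) (0, 0) := by
      apply Continuous.continuousAt; fun_prop
    have e1 := c1.eventually_mem (s := U) (by simpa using hU.mem_nhds hx)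
    have e2 := c2.eventually_mem (s := U) (by simpa using hU.mem_nhds hx)
    obtain ⟨δ, hδ, hb⟩ := Metric.nhds_basis_ball.mem_iff.1 (e1.and e2)
    refine ⟨δ, hδ, fun w s hw hs => ?_⟩
    have hz : ((w, s) : E × F) ∈ ball ((0:E), (0:F)) δ := by
      rw [mem_ball, Prod.dist_eq]
      simp only [dist_zero_right]
      exact max_lt hw hs
    exact hb hz
  refine ⟨min r δ, lt_min h.pos hδ, fun w s hw hs => h.add w s (hw.trans_le (min_le_left _ _))
    (hs.trans_le (min_le_left _ _)), fun i w s hw hs => ?_⟩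
  by_cases hi : i ∈ S
  · exact h.iff ⟨i, hi⟩ w s (hw.trans_le (min_le_left _ _)) (hs.trans_le (min_le_left _ _))
  · obtain ⟨a1, a2⟩ := hδ' w s (hw.trans_le (min_le_right _ _)) (hs.trans_le (min_le_right _ _))
    have := hS i hi
    constructor
    · intro hh; exact absurd (show x + w + σ s ∈ M i ∩ U from ⟨hh, a2⟩) (by simp [this])
    · intro hh; exact absurd (show x + w ∈ M i ∩ U from ⟨hh, a1⟩) (by simp [this])

/-- compose a flow box with a linear map that has a right inverse -/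
theorem FlowBox.comp {G : Type*} [NormedAddCommGroup G] [NormedSpace ℝ G] [FiniteDimensional ℝ G]
    {ι : Type*} {u : E → F} {M : ι → Set E} {x : E} {σ : F →ₗ[ℝ] E} {r : ℝ}
    (h : FlowBox u M x σ r) (L : F →ₗ[ℝ] G) (τ : G →ₗ[ℝ] F) (hτ : ∀ g, L (τ g) = g) :
    ∃ r', FlowBox (fun y => L (u y)) M x (σ ∘ₗ τ) r' := by
  have hτc : Continuous τ := τ.continuous_of_finiteDimensional
  have e1 : ∀ᶠ g : G in 𝓝 0, ‖τ g‖ < r := by
    have : ContinuousAt (fun g : G => ‖τ g‖) 0 := by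
      apply Continuous.continuousAt; fun_prop
    exact this.eventually_lt_const (by simpa using h.pos)
  obtain ⟨δ, hδ, hb⟩ := Metric.nhds_basis_ball.mem_iff.1 e1
  have hb' : ∀ g : G, ‖g‖ < δ → ‖τ g‖ < r := fun g hg => hb (by simpa using hg)
  refine ⟨min r δ, lt_min h.pos hδ, fun w s hw hs => ?_, fun i w s hw hs => ?_⟩
  · have := h.add w (τ s) (hw.trans_le (min_le_left _ _)) (hb' s (hs.trans_le (min_le_right _ _)))
    simp only [LinearMap.comp_apply]
    rw [this, map_add, hτ]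
  · exact h.iff i w (τ s) (hw.trans_le (min_le_left _ _)) (hb' s (hs.trans_le (min_le_right _ _)))

/-- **Flow boxes for locally finite families**: almost all values are regular. -/
theorem ae_flowBox {ι : Type*} [FiniteDimensional ℝ E] [FiniteDimensional ℝ F]
    [MeasurableSpace F] [BorelSpace F] (μ : Measure F) [μ.IsAddHaarMeasure] {u : E → F}
    {M : ι → Set E} {Ω : Set E} (hΩ : IsOpen Ω) (hu : ConicalOn u Ω) (huc : ContinuousOn u Ω)
    (H : ∀ i, ∀ x ∈ Ω, LocConeAt (M i) x)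
    (hlf : ∀ x ∈ Ω, ∃ U ∈ 𝓝 x, {i | (M i ∩ U).Nonempty}.Finite) :
    ∀ᵐ t ∂μ, ∀ x ∈ Ω, u x = t → ∃ (σ : F →ₗ[ℝ] E) (r : ℝ), FlowBox u M x σ r := by
  choose! U hU hfin using hlf
  set O : E → Set E := fun x => interior (U x) ∩ Ω with hO
  have hOo : ∀ x, IsOpen (O x) := fun x => isOpen_interior.inter hΩ
  have hOn : ∀ x ∈ Ω, O x ∈ 𝓝[Ω] x := fun x hx =>
    mem_nhdsWithin_of_mem_nhds ((hOo x).mem_nhds ⟨mem_interior_iff_mem_nhds.2 (hU x hx), hx⟩)
  obtain ⟨t, htΩ, htc, htcov⟩ := TopologicalSpace.countable_cover_nhdsWithin hOn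
  have key : ∀ z ∈ t, ∀ᵐ a ∂μ, ∀ x ∈ O z, u x = a →
      ∃ (σ : F →ₗ[ℝ] E) (r : ℝ), FlowBox u M x σ r := by
    intro z hz
    have hOΩ : O z ⊆ Ω := inter_subset_right
    set S : Set ι := {i | (M i ∩ U z).Nonempty} with hS
    have hSf : Finite S := hfin z (htΩ hz)
    have h1 := exists_flowBox_ae μ (M := fun i : S => M i) (hOo z)
      (u := u) (hu.mono (IsOpen.conicalSet (hOo z)) hOΩ) (huc.mono hOΩ)
      (fun i x hx => H i x (hOΩ hx))
    · filter_upwards [h1] with a ha x hx hxa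
      obtain ⟨σ, r, hfb⟩ := ha x hx hxa
      obtain ⟨r', hr'⟩ := FlowBox.extend (M := M) (S := S) (hOo z) hx hfb (fun i hi => by
        rw [← not_nonempty_iff_eq_empty]
        intro hne
        exact hi (hne.mono (inter_subset_inter_right _
          ((inter_subset_left).trans interior_subset))))
      exact ⟨σ, r', hr'⟩
  have := (ae_ball_iff htc).2 key
  filter_upwards [this] with a ha x hx hxa
  obtain ⟨z, hz, hxz⟩ := mem_iUnion₂.1 (htcov hx)
  exact ha z hz x hxz hxa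

/-- **One generic offset for all levels.** -/
theorem ae_flowBox_levels {n : ℕ} {ι : Type*} [FiniteDimensional ℝ E] {h : E → Fin n → ℝ}
    {M : ι → Set E} {Ω : Set E} (hΩ : IsOpen Ω) (hu : ConicalOn h Ω) (huc : ContinuousOn h Ω)
    (H : ∀ i, ∀ x ∈ Ω, LocConeAt (M i) x)
    (hlf : ∀ x ∈ Ω, ∃ U ∈ 𝓝 x, {i | (M i ∩ U).Nonempty}.Finite)
    {Q : Set ℝ} (hQ : Q.Countable) :
    ∀ᵐ θ : Fin n → ℝ, ∀ J : Finset (Fin n), ∀ x ∈ Ω, (∀ j ∈ J, ∃ q ∈ Q, h x j = θ j + q) →
      ∃ (σ : (J → ℝ) →ₗ[ℝ] E) (r : ℝ), FlowBox (fun y (j : J) => h y j) M x σ r := by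
  rw [ae_all_iff]
  intro J
  -- the projection
  set L : (Fin n → ℝ) →ₗ[ℝ] (J → ℝ) := LinearMap.funLeft ℝ ℝ (fun j : J => (j : Fin n)) with hL
  have hLs : Function.Surjective L :=
    LinearMap.funLeft_surjective_of_injective ℝ ℝ _ Subtype.val_injective
  have hLc : Continuous L := L.continuous_of_finiteDimensional
  have hcon : ConicalOn (fun y (j : J) => h y j) Ω := by
    intro x hx
    obtain ⟨r, hr, hh⟩ := hu x hx
    refine ⟨r, hr, fun v hv hxv t ht => ⟨(hh v hv hxv t ht).1, ?_⟩⟩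
    have := (hh v hv hxv t ht).2
    funext j
    simp only [this, Pi.add_apply, Pi.smul_apply, Pi.sub_apply]
  have hcont : ContinuousOn (fun y (j : J) => h y j) Ω := hLc.comp_continuousOn huc
  have h1 := ae_flowBox (volume : Measure (J → ℝ)) hΩ hcon hcont H hlf
  have hcq : (Set.univ.pi (fun _ : J => Q)).Countable := Set.countable_univ_pi fun _ => hQ
  have h2 : ∀ c ∈ Set.univ.pi (fun _ : J => Q), ∀ᵐ θ : Fin n → ℝ, ∀ x ∈ Ω,
      (fun j : J => h x j) = L θ + c →
      ∃ (σ : (J → ℝ) →ₗ[ℝ] E) (r : ℝ), FlowBox (fun y (j : J) => h y j) M x σ r := by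
    intro c _
    exact ae_comp_affine volume volume L hLs c h1
  filter_upwards [(ae_ball_iff hcq).2 h2] with θ hθ x hx hJ
  choose! q hq hq' using hJ
  refine hθ (fun j : J => q j) (fun j _ => hq j j.2) x hx ?_
  funext j
  simp only [Pi.add_apply, hL, LinearMap.funLeft_apply]
  exact hq' j j.2

/-- a generic offset avoids countably many values on all levels -/
theorem ae_levels_notMem {n : ℕ} {Q C : Set ℝ} (hQ : Q.Countable) (hC : C.Countable) :
    ∀ᵐ θ : Fin n → ℝ, ∀ j, ∀ q ∈ Q, θ j + q ∉ C := by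
  rw [ae_all_iff]
  intro j
  rw [ae_ball_iff hQ]
  intro q _
  have h0 : ∀ᵐ t : ℝ, t + q ∉ C := by
    rw [ae_iff]
    have : {a : ℝ | ¬ (a + q ∉ C)} = (fun a => a + q) ⁻¹' C := by ext; simp
    rw [this]
    exact (hC.preimage_of_injOn (add_left_injective q).injOn).measure_zero _
  exact (Measure.quasiMeasurePreserving_eval (μ := fun _ : Fin n => (volume : Measure ℝ)) j).ae h0

/-- flow box for fewer coordinates -/
theorem FlowBox.subset {n : ℕ} {ι : Type*} {h : E → Fin n → ℝ}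
    {M : ι → Set E} {x : E} {J J' : Finset (Fin n)} {σ : (J → ℝ) →ₗ[ℝ] E} {r : ℝ}
    (hf : FlowBox (fun y (j : J) => h y j) M x σ r) (hJ : J' ⊆ J) :
    ∃ (σ' : (J' → ℝ) →ₗ[ℝ] E) (r' : ℝ), FlowBox (fun y (j : J') => h y j) M x σ' r' := by
  classical
  let L : (J → ℝ) →ₗ[ℝ] (J' → ℝ) := LinearMap.funLeft ℝ ℝ (fun j : J' => (⟨j, hJ j.2⟩ : J))
  let τ : (J' → ℝ) →ₗ[ℝ] (J → ℝ) :=
    { toFun := fun g j => if hj : (j : Fin n) ∈ J' then g ⟨j, hj⟩ else 0
      map_add' := by
        intro a b; funext j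
        by_cases hj : (j : Fin n) ∈ J' <;> simp [hj]
      map_smul' := by
        intro a b; funext j
        by_cases hj : (j : Fin n) ∈ J' <;> simp [hj] }
  obtain ⟨r', hr'⟩ := FlowBox.comp hf L τ (by
    intro g; funext j
    simp [L, τ, LinearMap.funLeft_apply])
  exact ⟨_, r', hr'⟩

/-- flow box for one coordinate, real valued -/
theorem FlowBox.single {n : ℕ} {ι : Type*} {h : E → Fin n → ℝ}
    {M : ι → Set E} {x : E} {J : Finset (Fin n)} {σ : (J → ℝ) →ₗ[ℝ] E} {r : ℝ}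
    (hf : FlowBox (fun y (j : J) => h y j) M x σ r) {i : Fin n} (hi : i ∈ J) :
    ∃ (σ' : ℝ →ₗ[ℝ] E) (r' : ℝ), FlowBox (fun y => h y i) M x σ' r' := by
  classical
  let L : (J → ℝ) →ₗ[ℝ] ℝ := LinearMap.proj (⟨i, hi⟩ : J)
  let τ : ℝ →ₗ[ℝ] (J → ℝ) := LinearMap.single ℝ (fun _ : J => ℝ) ⟨i, hi⟩
  obtain ⟨r', hr'⟩ := FlowBox.comp hf L τ (by intro g; simp [L, τ])
  exact ⟨_, r', hr'⟩

/-- along a tile of dimension `≤ dim W` there are at most `dim W` independent regular levels -/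
theorem FlowBox.finrank_le {ι : Type*} {u : E → F} {M : ι → Set E} {x : E}
    {σ : F →ₗ[ℝ] E} {r : ℝ} [FiniteDimensional ℝ E] [FiniteDimensional ℝ F]
    (h : FlowBox u M x σ r) {i : ι} (hx : x ∈ M i) (W : Submodule ℝ E)
    (hW : ∀ᶠ y in 𝓝 x, y ∈ M i → y - x ∈ W) :
    Module.finrank ℝ F ≤ Module.finrank ℝ W := by
  have hσc : Continuous σ := σ.continuous_of_finiteDimensional
  have e1 : ∀ᶠ s : F in 𝓝 0, x + σ s ∈ M i → x + σ s - x ∈ W := by
    have c1 : ContinuousAt (fun s : F => x + σ s) 0 := by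
      apply Continuous.continuousAt; fun_prop
    have : Tendsto (fun s : F => x + σ s) (𝓝 0) (𝓝 x) := by simpa [ContinuousAt] using c1
    exact this.eventually hW
  have e2 : ∀ᶠ s : F in 𝓝 0, σ s ∈ W := by
    filter_upwards [e1, Metric.ball_mem_nhds (0:F) h.pos] with s hs hsr
    have h1 : x + σ s ∈ M i := by
      have := (h.iff i 0 s (by simpa using h.pos) (by simpa using hsr)).2 (by simpa using hx)
      simpa using this
    simpa using hs h1
  have e3 : ∀ s : F, σ s ∈ W := by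
    intro s
    obtain ⟨δ, hδ, hb⟩ := Metric.nhds_basis_ball.mem_iff.1 e2
    have hlim : ∀ᶠ c : ℝ in 𝓝[>] 0, c • s ∈ ball (0:F) δ := by
      have : ContinuousAt (fun c : ℝ => c • s) 0 := by
        apply Continuous.continuousAt; fun_prop
      have h2 := this.eventually_mem (s := ball (0:F) δ)
        (by simpa using Metric.ball_mem_nhds (0:F) hδ)
      exact h2.filter_mono nhdsWithin_le_nhds
    obtain ⟨c, hc, hc0⟩ := (hlim.and self_mem_nhdsWithin).exists
    have h3 : σ (c • s) ∈ W := hb hc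
    rw [map_smul] at h3
    have h4 := W.smul_mem c⁻¹ h3
    rwa [smul_smul, inv_mul_cancel₀ (ne_of_gt hc0), one_smul] at h4
  have hinj : Function.Injective σ := by
    rw [← LinearMap.ker_eq_bot, LinearMap.ker_eq_bot']
    intro s hs
    by_contra hs0
    -- scale `s` to be small
    have hn : 0 < ‖s‖ := norm_pos_iff.2 hs0
    set c : ℝ := r / (2 * ‖s‖) with hc
    have hc0 : 0 < c := by have := h.pos; positivity
    have h1 : ‖c • s‖ < r := by
      rw [norm_smul, Real.norm_of_nonneg hc0.le, hc]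
      have := h.pos
      field_simp; linarith
    have h2 := h.add 0 (c • s) (by simpa using h.pos) h1
    rw [map_smul, hs, smul_zero, add_zero] at h2
    have h3 : c • s = 0 := by simpa using h2
    rcases smul_eq_zero.1 h3 with h4 | h4
    · exact hc0.ne' h4
    · exact hs0 h4
  exact LinearMap.finrank_le_finrank_of_injective (f := σ.codRestrict W e3)
    (fun a b hab => hinj (by simpa using congrArg Subtype.val hab))

/-- On a tile of dimension `≤ k` at most `k` coordinates can lie on the levels. -/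
theorem card_le_of_flowBox {n : ℕ} {ι : Type*} [FiniteDimensional ℝ E] {h : E → Fin n → ℝ}
    {M : ι → Set E} {x : E} {J : Finset (Fin n)} {σ : (J → ℝ) →ₗ[ℝ] E} {r : ℝ}
    (hf : FlowBox (fun y (j : J) => h y j) M x σ r) {i : ι} (hx : x ∈ M i) (W : Submodule ℝ E)
    (hW : ∀ᶠ y in 𝓝 x, y ∈ M i → y - x ∈ W) : J.card ≤ Module.finrank ℝ W := by
  have := FlowBox.finrank_le hf hx W hW
  simpa using this

/-- **Choice of the offset** in any nonempty open set, all conclusions at once. -/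
theorem exists_offset {n : ℕ} {ι : Type*} [FiniteDimensional ℝ E] {h : E → Fin n → ℝ}
    {M : ι → Set E} {Ω : Set E} (hΩ : IsOpen Ω) (hu : ConicalOn h Ω) (huc : ContinuousOn h Ω)
    (H : ∀ i, ∀ x ∈ Ω, LocConeAt (M i) x)
    (hlf : ∀ x ∈ Ω, ∃ U ∈ 𝓝 x, {i | (M i ∩ U).Nonempty}.Finite)
    {Q C : Set ℝ} (hQ : Q.Countable) (hC : C.Countable)
    {p : (Fin n → ℝ) → Prop} (hp : ∀ᵐ θ : Fin n → ℝ, p θ)
    {O : Set (Fin n → ℝ)} (hO : IsOpen O) (hne : O.Nonempty) :
    ∃ θ ∈ O, p θ ∧ (∀ j, ∀ q ∈ Q, θ j + q ∉ C) ∧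
      ∀ J : Finset (Fin n), ∀ x ∈ Ω, (∀ j ∈ J, ∃ q ∈ Q, h x j = θ j + q) →
        ∃ (σ : (J → ℝ) →ₗ[ℝ] E) (r : ℝ), FlowBox (fun y (j : J) => h y j) M x σ r := by
  have h1 := (ae_flowBox_levels hΩ hu huc H hlf hQ).and ((ae_levels_notMem (n := n) hQ hC).and hp)
  have h2 : (volume : Measure (Fin n → ℝ)) O ≠ 0 := (hO.measure_pos volume hne).ne'
  obtain ⟨θ, hθO, hθ⟩ := (frequently_ae_mem_iff.2 h2).and_eventually h1 |>.exists
  exact ⟨θ, hθO, hθ.2.2, hθ.2.1, hθ.1⟩

end P073.H84
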